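import Mathlib

/-!
# P235, line K5, Theorem N (helper320 #15753): the CAPTURE row

`X s` is the contracted distance from a point `p` to the `s`-th vertex of the adhesion, `P` its
minimum (the distance of `p` to the adhesion), and the same for `Y`, `Q` and a point `q`.  The births
are `P` itself and the clamps `cl P (X s - (ρ s s1 + ρ s s2) / 2)`.
-/

namespace Vale.Agent.P235.K5.H838

/-- The clamp of `u` to `[-F, F]`. -/
def cl (F u : ℝ) : ℝ := max (-F) (min F u)

theorem cl_of_le {F u : ℝ} (h : |u| ≤ F) : cl F u = u := by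
  rw [abs_le] at h
  unfold cl
  rw [min_eq_right h.2, max_eq_right h.1]

theorem cl_le {F u : ℝ} (hF : 0 ≤ F) : cl F u ≤ F := by
  unfold cl
  exact max_le (by linarith) (min_le_left _ _)

theorem neg_le_cl (F u : ℝ) : -F ≤ cl F u := le_max_left _ _

theorem cl_zero (u : ℝ) : cl 0 u = 0 := by
  unfold cl
  rcases le_total u 0 with h | h
  · rw [min_eq_right h]; simp [h]
  · rw [min_eq_left h]; simp

theorem abs_cl_le {F u : ℝ} (hF : 0 ≤ F) : |cl F u| ≤ F :=
  abs_le.2 ⟨neg_le_cl F u, cl_le hF⟩

/-- The clamp is 1-Lipschitz jointly, for the maximum norm. -/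
theorem cl_lip {F G u v D : ℝ} (hF : |F - G| ≤ D) (hu : |u - v| ≤ D) : |cl F u - cl G v| ≤ D := by
  rw [abs_le] at hF hu ⊢
  unfold cl
  constructor
  · rcases le_total (-G) (min G v) with h | h
    · rw [max_eq_right h]
      have h1 : min G v - D ≤ max (-F) (min F u) := by
        refine le_trans ?_ (le_max_right _ _)
        refine le_min ?_ ?_
        · have := min_le_left G v; linarith
        · have := min_le_right G v; linarith
      linarith
    · rw [max_eq_left h]
      have := le_max_left (-F) (min F u)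
      linarith
  · rcases le_total (-F) (min F u) with h | h
    · rw [max_eq_right h]
      have h1 : min F u - D ≤ max (-G) (min G v) := by
        refine le_trans ?_ (le_max_right _ _)
        refine le_min ?_ ?_
        · have := min_le_left F u; linarith
        · have := min_le_right F u; linarith
      linarith
    · rw [max_eq_left h]
      have := le_max_left (-G) (min G v)
      linarith

/-- The one-sided case of the capture. -/
theorem capture_aux {ι : Type*} (ρ : ι → ι → ℝ) (X Y : ι → ℝ) (P Q h : ℝ) (hh : 0 ≤ h)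
    (hX : ∀ s s', |X s - ρ s s'| ≤ X s') (hY : ∀ s s', |Y s - ρ s s'| ≤ Y s')
    (hP' : ∃ s, X s = P) (hQ' : ∃ s, Y s = Q) (hPh : h ≤ P) (hQh : h ≤ Q)
    (hPQ : |P - Q| < h) (s : ι) (h3 : 3 * h ≤ Y s - X s) :
    ∃ s1 s2, h ≤ |cl P (X s - (ρ s s1 + ρ s s2) / 2) - cl Q (Y s - (ρ s s1 + ρ s s2) / 2)| := by
  obtain ⟨s1, hs1⟩ := hP'
  obtain ⟨s2, hs2⟩ := hQ'
  have hX1 := hX s s1
  have hY2 := hY s s2
  rw [hs1, abs_le] at hX1
  rw [hs2, abs_le] at hY2
  rw [abs_lt] at hPQ
  by_cases c1 : X s ≤ ρ s s1
  · refine ⟨s1, s1, ?_⟩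
    have e1 : X s - (ρ s s1 + ρ s s1) / 2 = X s - ρ s s1 := by ring
    have e2 : Y s - (ρ s s1 + ρ s s1) / 2 = Y s - ρ s s1 := by ring
    rw [e1, e2, cl_of_le (abs_le.2 ⟨by linarith [hX1.1], hX1.2⟩)]
    have h4 : X s - ρ s s1 + h ≤ cl Q (Y s - ρ s s1) := by
      unfold cl
      refine le_trans ?_ (le_max_right _ _)
      refine le_min ?_ ?_ <;> linarith
    rw [abs_sub_comm]
    exact le_trans (by linarith) (le_abs_self _)
  · by_cases c2 : ρ s s2 ≤ Y s
    · refine ⟨s2, s2, ?_⟩
      have e1 : X s - (ρ s s2 + ρ s s2) / 2 = X s - ρ s s2 := by ring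
      have e2 : Y s - (ρ s s2 + ρ s s2) / 2 = Y s - ρ s s2 := by ring
      rw [e1, e2, cl_of_le (F := Q) (abs_le.2 ⟨by linarith [hY2.1], hY2.2⟩)]
      have h4 : cl P (X s - ρ s s2) ≤ Y s - ρ s s2 - h := by
        unfold cl
        refine max_le (by linarith) (le_trans (min_le_right _ _) (by linarith))
      rw [abs_sub_comm]
      exact le_trans (by linarith) (le_abs_self _)
    · push Not at c1 c2
      refine ⟨s1, s2, ?_⟩
      set m : ℝ := (ρ s s1 + ρ s s2) / 2 with hm
      have hm1 : ρ s s1 + ρ s s2 = 2 * m := by rw [hm]; ring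
      rw [abs_sub_comm]
      refine le_trans ?_ (le_abs_self _)
      by_cases c3 : m ≤ X s
      · have h5 : cl P (X s - m) = X s - m :=
          cl_of_le (abs_le.2 ⟨by linarith, by linarith⟩)
        have h6 : X s - m + h ≤ cl Q (Y s - m) := by
          unfold cl
          refine le_trans ?_ (le_max_right _ _)
          refine le_min ?_ ?_ <;> linarith
        linarith
      · by_cases c4 : Y s ≤ m
        · have h5 : cl Q (Y s - m) = Y s - m :=
            cl_of_le (abs_le.2 ⟨by linarith, by linarith⟩)
          have h6 : cl P (X s - m) ≤ Y s - m - h := by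
            unfold cl
            refine max_le (by linarith) (le_trans (min_le_right _ _) (by linarith))
          linarith
        · push Not at c3 c4
          have h5 : cl P (X s - m) ≤ 0 := by
            unfold cl
            refine max_le (by linarith) (le_trans (min_le_right _ _) (by linarith))
          have h6 : 0 ≤ cl Q (Y s - m) := by
            unfold cl
            refine le_trans ?_ (le_max_right _ _)
            refine le_min ?_ ?_ <;> linarith
          by_cases c5 : h ≤ Y s - m
          · have h7 : h ≤ cl Q (Y s - m) := by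
              unfold cl
              refine le_trans ?_ (le_max_right _ _)
              refine le_min ?_ ?_ <;> linarith
            linarith
          · push Not at c5
            have h7 : cl P (X s - m) ≤ -h := by
              unfold cl
              refine max_le (by linarith) (le_trans (min_le_right _ _) (by linarith))
            linarith

/-- **CAPTURE.**  If `p` is at distance `P ≥ 2h` from the adhesion and some coordinate separates
`p` and `q` by `3h`, then `F` or one of the `k³` clamps separates them by `h`. -/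
theorem capture {ι : Type*} (ρ : ι → ι → ℝ) (X Y : ι → ℝ) (P Q h : ℝ) (hh : 0 ≤ h)
    (hX : ∀ s s', |X s - ρ s s'| ≤ X s') (hY : ∀ s s', |Y s - ρ s s'| ≤ Y s')
    (hP' : ∃ s, X s = P) (hQ' : ∃ s, Y s = Q) (h2 : 2 * h ≤ P) (s : ι)
    (h3 : 3 * h ≤ |X s - Y s|) :
    h ≤ |P - Q| ∨
      ∃ s1 s2, h ≤ |cl P (X s - (ρ s s1 + ρ s s2) / 2) - cl Q (Y s - (ρ s s1 + ρ s s2) / 2)| := by
  by_cases hPQ : h ≤ |P - Q|
  · exact Or.inl hPQ
  · right
    push Not at hPQ
    have h4 := hPQ
    rw [abs_lt] at h4
    rcases le_total (X s) (Y s) with h5 | h5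
    · rw [abs_sub_comm, abs_of_nonneg (by linarith)] at h3
      exact capture_aux ρ X Y P Q h hh hX hY hP' hQ' (by linarith) (by linarith) hPQ s h3
    · rw [abs_of_nonneg (by linarith)] at h3
      obtain ⟨s1, s2, h6⟩ := capture_aux ρ Y X Q P h hh hY hX hQ' hP' (by linarith) (by linarith)
        (by rw [abs_sub_comm]; exact hPQ) s h3
      exact ⟨s1, s2, by rw [abs_sub_comm]; exact h6⟩

end Vale.Agent.P235.K5.H838
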