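import Mathlib

/-!
# P235, line K5, Theorem N (helper320 #15753): the CONTRACTION row

`XX d S ρ s v = min_{s' ∈ S} (d v s' + ρ s' s)` is the distance of `v` to `s ∈ S` after the adhesion
`S` has been contracted from `d` to `ρ ≤ d`.  `dS d S v = min_{s ∈ S} d v s`.  `rT d S ρ p q` is the
Kuratowski distance `max_{s ∈ S} |XX s p - XX s q|`: this is the metric to be put on the adhesions of
the children of `S`.
-/

namespace Vale.Agent.P235.K5.H838

open Finset

variable {V : Type*}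

/-- `d` is a (pseudo)metric. -/
structure PM (d : V → V → ℝ) : Prop where
  self : ∀ v, d v v = 0
  symm : ∀ u v, d u v = d v u
  tri : ∀ u v w, d u w ≤ d u v + d v w

theorem PM.nonneg {d : V → V → ℝ} (h : PM d) (u v : V) : 0 ≤ d u v := by
  have h1 := h.tri u v u
  rw [h.self, h.symm v u] at h1
  linarith

/-- `ρ` is a (pseudo)metric on `S`, below `d`. -/
structure Sub (d : V → V → ℝ) (S : Finset V) (ρ : V → V → ℝ) : Prop where
  self : ∀ s ∈ S, ρ s s = 0
  symm : ∀ s ∈ S, ∀ s' ∈ S, ρ s s' = ρ s' s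
  tri : ∀ s ∈ S, ∀ s' ∈ S, ∀ s'' ∈ S, ρ s s'' ≤ ρ s s' + ρ s' s''
  le : ∀ s ∈ S, ∀ s' ∈ S, ρ s s' ≤ d s s'

theorem Sub.nonneg {d : V → V → ℝ} {S : Finset V} {ρ : V → V → ℝ} (h : Sub d S ρ) {s s' : V}
    (hs : s ∈ S) (hs' : s' ∈ S) : 0 ≤ ρ s s' := by
  have h1 := h.tri s hs s' hs' s hs
  rw [h.self s hs, h.symm s' hs' s hs] at h1
  linarith

/-- The contracted distance to `s ∈ S`. -/
noncomputable def XX (d : V → V → ℝ) (S : Finset V) (ρ : V → V → ℝ) (s v : V) : ℝ :=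
  if h : S.Nonempty then S.inf' h (fun s' => d v s' + ρ s' s) else 0

/-- The distance to `S`. -/
noncomputable def dS (d : V → V → ℝ) (S : Finset V) (v : V) : ℝ :=
  if h : S.Nonempty then S.inf' h (fun s' => d v s') else 0

/-- The Kuratowski distance over `S`. -/
noncomputable def rT (d : V → V → ℝ) (S : Finset V) (ρ : V → V → ℝ) (p q : V) : ℝ :=
  if h : S.Nonempty then S.sup' h (fun s => |XX d S ρ s p - XX d S ρ s q|) else 0

section Basic

variable {d : V → V → ℝ} {S : Finset V} {ρ : V → V → ℝ}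

theorem XX_le {s' : V} (hs' : s' ∈ S) (s v : V) : XX d S ρ s v ≤ d v s' + ρ s' s := by
  have hne : S.Nonempty := ⟨s', hs'⟩
  unfold XX
  rw [dif_pos hne]
  exact Finset.inf'_le (fun s' => d v s' + ρ s' s) hs'

theorem exists_XX (hne : S.Nonempty) (s v : V) : ∃ s' ∈ S, XX d S ρ s v = d v s' + ρ s' s := by
  unfold XX
  rw [dif_pos hne]
  obtain ⟨a, ha, h⟩ := Finset.exists_mem_eq_inf' hne (fun s' => d v s' + ρ s' s)
  exact ⟨a, ha, h⟩

theorem dS_le {s' : V} (hs' : s' ∈ S) (v : V) : dS d S v ≤ d v s' := by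
  have hne : S.Nonempty := ⟨s', hs'⟩
  unfold dS
  rw [dif_pos hne]
  exact Finset.inf'_le (fun s' => d v s') hs'

theorem exists_dS (hne : S.Nonempty) (v : V) : ∃ s' ∈ S, dS d S v = d v s' := by
  unfold dS
  rw [dif_pos hne]
  obtain ⟨a, ha, h⟩ := Finset.exists_mem_eq_inf' hne (fun s' => d v s')
  exact ⟨a, ha, h⟩

theorem le_rT {s : V} (hs : s ∈ S) (p q : V) :
    |XX d S ρ s p - XX d S ρ s q| ≤ rT d S ρ p q := by
  have hne : S.Nonempty := ⟨s, hs⟩
  unfold rT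
  rw [dif_pos hne]
  exact Finset.le_sup' (fun s => |XX d S ρ s p - XX d S ρ s q|) hs

theorem exists_rT (hne : S.Nonempty) (p q : V) :
    ∃ s ∈ S, rT d S ρ p q = |XX d S ρ s p - XX d S ρ s q| := by
  unfold rT
  rw [dif_pos hne]
  obtain ⟨a, ha, h⟩ := Finset.exists_mem_eq_sup' hne (fun s => |XX d S ρ s p - XX d S ρ s q|)
  exact ⟨a, ha, h⟩

theorem rT_empty (hne : ¬ S.Nonempty) (p q : V) : rT d S ρ p q = 0 := by
  unfold rT
  rw [dif_neg hne]

theorem XX_empty (hne : ¬ S.Nonempty) (s v : V) : XX d S ρ s v = 0 := by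
  unfold XX
  rw [dif_neg hne]

theorem dS_empty (hne : ¬ S.Nonempty) (v : V) : dS d S v = 0 := by
  unfold dS
  rw [dif_neg hne]

theorem XX_lip (hd : PM d) (s u v : V) : |XX d S ρ s u - XX d S ρ s v| ≤ d u v := by
  by_cases hne : S.Nonempty
  · obtain ⟨a, ha, h1⟩ := exists_XX (d := d) (ρ := ρ) hne s u
    obtain ⟨b, hb, h2⟩ := exists_XX (d := d) (ρ := ρ) hne s v
    have h3 := XX_le (d := d) (ρ := ρ) ha s v
    have h4 := XX_le (d := d) (ρ := ρ) hb s u
    have h5 := hd.tri v u a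
    have h6 := hd.tri u v b
    rw [hd.symm v u] at h5
    rw [abs_le]
    constructor <;> linarith
  · rw [XX_empty hne, XX_empty hne]
    simpa using hd.nonneg u v

theorem dS_lip (hd : PM d) (u v : V) : |dS d S u - dS d S v| ≤ d u v := by
  by_cases hne : S.Nonempty
  · obtain ⟨a, ha, h1⟩ := exists_dS (d := d) hne u
    obtain ⟨b, hb, h2⟩ := exists_dS (d := d) hne v
    have h3 := dS_le (d := d) ha v
    have h4 := dS_le (d := d) hb u
    have h5 := hd.tri v u a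
    have h6 := hd.tri u v b
    rw [hd.symm v u] at h5
    rw [abs_le]
    constructor <;> linarith
  · rw [dS_empty hne, dS_empty hne]
    simpa using hd.nonneg u v

theorem dS_nonneg (hd : PM d) (v : V) : 0 ≤ dS d S v := by
  by_cases hne : S.Nonempty
  · obtain ⟨a, ha, h1⟩ := exists_dS (d := d) hne v
    rw [h1]; exact hd.nonneg _ _
  · rw [dS_empty hne]

theorem dS_mem (hd : PM d) {s : V} (hs : s ∈ S) : dS d S s = 0 := by
  refine le_antisymm ?_ (dS_nonneg hd s)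
  have := dS_le (d := d) hs s
  rwa [hd.self] at this

theorem XX_nonneg (hd : PM d) (hρ : Sub d S ρ) {s : V} (hs : s ∈ S) (v : V) :
    0 ≤ XX d S ρ s v := by
  obtain ⟨a, ha, h1⟩ := exists_XX (d := d) (ρ := ρ) ⟨s, hs⟩ s v
  rw [h1]
  have := hd.nonneg v a
  have := hρ.nonneg ha hs
  linarith

/-- `X_s ≤ X_{s'} + ρ(s', s)`. -/
theorem XX_tri (hρ : Sub d S ρ) {s s' : V} (hs : s ∈ S) (hs' : s' ∈ S) (v : V) :
    XX d S ρ s v ≤ XX d S ρ s' v + ρ s' s := by
  obtain ⟨a, ha, h1⟩ := exists_XX (d := d) (ρ := ρ) ⟨s, hs⟩ s' v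
  have h2 := XX_le (d := d) (ρ := ρ) ha s v
  have h3 := hρ.tri a ha s' hs' s hs
  linarith

/-- on `S` the contracted distance is `ρ`. -/
theorem XX_mem (hd : PM d) (hρ : Sub d S ρ) {s s' : V} (hs : s ∈ S) (hs' : s' ∈ S) :
    XX d S ρ s s' = ρ s' s := by
  refine le_antisymm ?_ ?_
  · have := XX_le (d := d) (ρ := ρ) hs' s s'
    rwa [hd.self, zero_add] at this
  · obtain ⟨a, ha, h1⟩ := exists_XX (d := d) (ρ := ρ) ⟨s, hs⟩ s s'
    rw [h1]
    have h3 := hρ.tri s' hs' a ha s hs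
    have h4 := hρ.le s' hs' a ha
    linarith

/-- `ρ(s, s') ≤ X_s + X_{s'}`. -/
theorem le_XX_add (hd : PM d) (hρ : Sub d S ρ) {s s' : V} (hs : s ∈ S) (hs' : s' ∈ S) (v : V) :
    ρ s s' ≤ XX d S ρ s v + XX d S ρ s' v := by
  obtain ⟨a, ha, h1⟩ := exists_XX (d := d) (ρ := ρ) ⟨s, hs⟩ s v
  obtain ⟨b, hb, h2⟩ := exists_XX (d := d) (ρ := ρ) ⟨s, hs⟩ s' v
  have h3 := hρ.tri s hs a ha s' hs'
  have h4 := hρ.tri a ha b hb s' hs'
  have h5 := hρ.le a ha b hb
  have h6 := hd.tri a v b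
  rw [hd.symm a v] at h6
  rw [hρ.symm s hs a ha] at h3
  linarith

/-- The hypothesis `hX` of `capture`. -/
theorem XX_capture (hd : PM d) (hρ : Sub d S ρ) {s s' : V} (hs : s ∈ S) (hs' : s' ∈ S) (v : V) :
    |XX d S ρ s v - ρ s s'| ≤ XX d S ρ s' v := by
  have h1 := XX_tri hρ hs hs' v
  have h2 := le_XX_add hd hρ hs hs' v
  rw [hρ.symm s' hs' s hs] at h1
  rw [abs_le]
  constructor <;> linarith

/-- `min_s X_s = d(., S)`, upper half. -/
theorem dS_le_XX (hρ : Sub d S ρ) {s : V} (hs : s ∈ S) (v : V) :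
    dS d S v ≤ XX d S ρ s v := by
  obtain ⟨a, ha, h1⟩ := exists_XX (d := d) (ρ := ρ) ⟨s, hs⟩ s v
  have h2 := dS_le (d := d) ha v
  have h3 := hρ.nonneg ha hs
  linarith

/-- `min_s X_s = d(., S)`, lower half. -/
theorem exists_XX_eq_dS (hρ : Sub d S ρ) (hne : S.Nonempty) (v : V) :
    ∃ s ∈ S, XX d S ρ s v = dS d S v := by
  obtain ⟨a, ha, h1⟩ := exists_dS (d := d) hne v
  refine ⟨a, ha, le_antisymm ?_ (dS_le_XX hρ ha v)⟩
  have := XX_le (d := d) (ρ := ρ) ha a v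
  rw [hρ.self a ha] at this
  linarith

end Basic

section Kuratowski

variable {d : V → V → ℝ} {S : Finset V} {ρ : V → V → ℝ}

theorem rT_nonneg (p q : V) : 0 ≤ rT d S ρ p q := by
  by_cases hne : S.Nonempty
  · obtain ⟨a, _, h⟩ := exists_rT (d := d) (ρ := ρ) hne p q
    rw [h]; exact abs_nonneg _
  · rw [rT_empty hne]

/-- The Kuratowski distance is a pseudometric below `d`. -/
theorem rT_pm : PM (rT d S ρ) where
  self v := by
    by_cases hne : S.Nonempty
    · obtain ⟨a, _, h⟩ := exists_rT (d := d) (ρ := ρ) hne v v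
      rw [h]; simp
    · rw [rT_empty hne]
  symm u v := by
    by_cases hne : S.Nonempty
    · obtain ⟨a, ha, h⟩ := exists_rT (d := d) (ρ := ρ) hne u v
      obtain ⟨b, hb, h'⟩ := exists_rT (d := d) (ρ := ρ) hne v u
      have h1 := le_rT (d := d) (ρ := ρ) ha v u
      have h2 := le_rT (d := d) (ρ := ρ) hb u v
      rw [abs_sub_comm] at h1 h2
      linarith
    · rw [rT_empty hne, rT_empty hne]
  tri u v w := by
    by_cases hne : S.Nonempty
    · obtain ⟨a, ha, h⟩ := exists_rT (d := d) (ρ := ρ) hne u w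
      have h1 := le_rT (d := d) (ρ := ρ) ha u v
      have h2 := le_rT (d := d) (ρ := ρ) ha v w
      have h3 := abs_sub_le (XX d S ρ a u) (XX d S ρ a v) (XX d S ρ a w)
      linarith
    · rw [rT_empty hne, rT_empty hne, rT_empty hne]; simp

theorem rT_le (hd : PM d) (p q : V) : rT d S ρ p q ≤ d p q := by
  by_cases hne : S.Nonempty
  · obtain ⟨a, _, h⟩ := exists_rT (d := d) (ρ := ρ) hne p q
    rw [h]; exact XX_lip hd a p q
  · rw [rT_empty hne]; exact hd.nonneg _ _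

theorem rT_sub (hd : PM d) (T : Finset V) : Sub d T (rT d S ρ) where
  self s _ := rT_pm.self s
  symm s _ s' _ := rT_pm.symm s s'
  tri s _ s' _ s'' _ := rT_pm.tri s s' s''
  le s _ s' _ := rT_le hd s s'

/-- on `S` itself the Kuratowski distance is `ρ`. -/
theorem rT_mem (hd : PM d) (hρ : Sub d S ρ) {p q : V} (hp : p ∈ S) (hq : q ∈ S) :
    rT d S ρ p q = ρ p q := by
  refine le_antisymm ?_ ?_
  · obtain ⟨a, ha, h⟩ := exists_rT (d := d) (ρ := ρ) ⟨p, hp⟩ p q
    rw [h, XX_mem hd hρ ha hp, XX_mem hd hρ ha hq, abs_le]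
    have h1 := hρ.tri p hp q hq a ha
    have h2 := hρ.tri q hq p hp a ha
    rw [hρ.symm q hq p hp] at h2
    constructor <;> linarith
  · have h1 := le_rT (d := d) (ρ := ρ) hp p q
    rw [XX_mem hd hρ hp hp, XX_mem hd hρ hp hq, hρ.self p hp, zero_sub, abs_neg,
      abs_of_nonneg (hρ.nonneg hq hp), hρ.symm q hq p hp] at h1
    exact h1

/-- The Kuratowski distance controls `d(., S)`. -/
theorem dS_le_rT (hρ : Sub d S ρ) (p q : V) :
    |dS d S p - dS d S q| ≤ rT d S ρ p q := by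
  by_cases hne : S.Nonempty
  · obtain ⟨a, ha, h1⟩ := exists_XX_eq_dS (d := d) hρ hne p
    obtain ⟨b, hb, h2⟩ := exists_XX_eq_dS (d := d) hρ hne q
    have h3 := le_rT (d := d) (ρ := ρ) ha p q
    have h4 := le_rT (d := d) (ρ := ρ) hb p q
    have h5 := dS_le_XX (d := d) hρ ha q
    have h6 := dS_le_XX (d := d) hρ hb p
    rw [abs_le] at h3 h4 ⊢
    constructor <;> linarith
  · rw [dS_empty hne, dS_empty hne]; simpa using rT_nonneg p q

end Kuratowski

section Step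

variable {d : V → V → ℝ} {T : Finset V} {ρ : V → V → ℝ} {g : V → ℝ}

/-- **The step.**  `g` is a function (of the form `X^b_s`, `b` an ancestor) which below `T` is
computed through `T`; if `ρ` dominates the variation of `g` on `T` then `g` is computed through
`T` also from the contracted distances. -/
theorem step_le (hself : ∀ a ∈ T, ∀ a' ∈ T, g a' ≤ g a + ρ a' a) {v : V} {a : V} (ha : a ∈ T)
    (hle : ∀ a ∈ T, g v ≤ d v a + g a) : g v ≤ XX d T ρ a v + g a := by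
  obtain ⟨a', ha', h1⟩ := exists_XX (d := d) (ρ := ρ) ⟨a, ha⟩ a v
  have h2 := hle a' ha'
  have h3 := hself a ha a' ha'
  linarith

theorem step_ge (hρ : Sub d T ρ) {v : V} (hg : ∃ a ∈ T, g v = d v a + g a) :
    ∃ a ∈ T, XX d T ρ a v + g a ≤ g v := by
  obtain ⟨a, ha, h1⟩ := hg
  have h2 := XX_le (d := d) (ρ := ρ) ha a v
  rw [hρ.self a ha] at h2
  exact ⟨a, ha, by linarith⟩

/-- The monotonicity: the variation of `g` between two points below `T` is at most the Kuratowski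
distance over `T`. -/
theorem step_rT (hρ : Sub d T ρ) (hvar : ∀ a ∈ T, ∀ a' ∈ T, |g a - g a'| ≤ ρ a a') {p q : V}
    (hp : (∃ a ∈ T, g p = d p a + g a) ∧ ∀ a ∈ T, g p ≤ d p a + g a)
    (hq : (∃ a ∈ T, g q = d q a + g a) ∧ ∀ a ∈ T, g q ≤ d q a + g a) :
    |g p - g q| ≤ rT d T ρ p q := by
  have hself : ∀ a ∈ T, ∀ a' ∈ T, g a' ≤ g a + ρ a' a := fun a ha a' ha' => by
    have := (abs_le.1 (hvar a' ha' a ha)).2
    linarith
  have key : ∀ p q : V, ((∃ a ∈ T, g p = d p a + g a) ∧ ∀ a ∈ T, g p ≤ d p a + g a) →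
      ((∃ a ∈ T, g q = d q a + g a) ∧ ∀ a ∈ T, g q ≤ d q a + g a) →
      g p - g q ≤ rT d T ρ p q := by
    intro p q hp hq
    obtain ⟨a, ha, h1⟩ := step_ge (d := d) (ρ := ρ) hρ hq.1
    have h2 := step_le (d := d) (ρ := ρ) hself ha hp.2
    have h3 := le_rT (d := d) (ρ := ρ) ha p q
    have h4 := le_abs_self (XX d T ρ a p - XX d T ρ a q)
    linarith
  rw [abs_le]
  constructor
  · have := key q p hq hp
    rw [rT_pm.symm q p] at this
    linarith
  · exact key p q hp hq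

/-- One point on `T`: `|g z - g a| ≤ X^T_a(z)`. -/
theorem step_point (hρ : Sub d T ρ) (hvar : ∀ a ∈ T, ∀ a' ∈ T, |g a - g a'| ≤ ρ a a') {z a : V}
    (ha : a ∈ T)
    (hp : (∃ a ∈ T, g z = d z a + g a) ∧ ∀ a ∈ T, g z ≤ d z a + g a)
    (hlow : ∀ a ∈ T, g a ≤ d z a + g z) :
    |g z - g a| ≤ XX d T ρ a z := by
  have hself : ∀ a ∈ T, ∀ a' ∈ T, g a' ≤ g a + ρ a' a := fun a ha a' ha' => by
    have := (abs_le.1 (hvar a' ha' a ha)).2
    linarith
  rw [abs_le]
  constructor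
  · obtain ⟨a', ha', h1⟩ := exists_XX (d := d) (ρ := ρ) ⟨a, ha⟩ a z
    have h2 := hlow a' ha'
    have h3 := hself a' ha' a ha
    rw [h1]
    have h4 := hρ.symm a ha a' ha'
    linarith
  · have := step_le (d := d) (ρ := ρ) hself ha hp.2
    linarith

/-- The recursion for `X^S` itself: below `T`, `X^S_s` is computed through `T`. -/
theorem XX_through {S : Finset V} {σ : V → V → ℝ} (hne : S.Nonempty) (hd : PM d) {v : V}
    (hsep : ∀ s ∈ S, ∃ a ∈ T, d v s = d v a + d a s) (s : V) :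
    (∃ a ∈ T, XX d S σ s v = d v a + XX d S σ s a) ∧
      ∀ a ∈ T, XX d S σ s v ≤ d v a + XX d S σ s a := by
  have hle : ∀ a ∈ T, XX d S σ s v ≤ d v a + XX d S σ s a := fun a _ => by
    have := (abs_le.1 (XX_lip (S := S) (ρ := σ) hd s v a)).2
    linarith
  refine ⟨?_, hle⟩
  obtain ⟨s', hs', h1⟩ := exists_XX (d := d) (ρ := σ) hne s v
  obtain ⟨a, ha, h2⟩ := hsep s' hs'
  refine ⟨a, ha, le_antisymm (hle a ha) ?_⟩
  have h3 := XX_le (d := d) (ρ := σ) hs' s a
  linarith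

end Step

end Vale.Agent.P235.K5.H838
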