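import Vale.Agent.P235.H732.Monitors
import Vale.Agent.P235.K5.H838.Capture
import Vale.Agent.P235.K5.H838.Contract

/-!
# P235, line K5, Theorem N: the contracted metrics on a rooted tree of bags

Nodes `t`, adhesions `S t`, `U t` = the vertices below `t`; only the one-step separation is assumed.
-/

set_option linter.unusedSectionVars false

namespace Vale.Agent.P235.K5.H838

open Finset Vale.Agent.P235.H732

/-- A rooted tree of bags: `S t` is the adhesion of `t` to its parent, `U t` the set of all vertices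
below `t` (`S t` included). -/
structure Tree (N V : Type*) [LinearOrder N] (d : V → V → ℝ) where
  par : N → Option N
  par_lt : ∀ {t s}, par t = some s → s < t
  S : N → Finset V
  U : N → Set V
  S_sub : ∀ t, ∀ a ∈ S t, a ∈ U t
  U_par : ∀ {t s}, par t = some s → U t ⊆ U s
  sep : ∀ {t s}, par t = some s → ∀ p ∈ U t, ∀ q ∈ S s, ∃ a ∈ S t, d p a + d a q ≤ d p q

namespace Tree

variable {N V : Type*} [LinearOrder N] {d : V → V → ℝ} (D : Tree N V d)

theorem U_anc {b t : N} (h : Anc D.par b t) : D.U t ⊆ D.U b := by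
  induction h with
  | refl => exact fun _ h => h
  | step h1 _ ih => exact (D.U_par h1).trans ih

theorem sep_anc (hd : PM d) {b t : N} (h : Anc D.par b t) (hne : b ≠ t) :
    ∀ p ∈ D.U t, ∀ q ∈ D.S b, ∃ a ∈ D.S t, d p q = d p a + d a q := by
  induction h with
  | refl => exact absurd rfl hne
  | @step u t h1 h2 ih =>
    intro p hp q hq
    by_cases hbu : b = u
    · subst hbu
      obtain ⟨a, ha, h3⟩ := D.sep h1 p hp q hq
      exact ⟨a, ha, le_antisymm (hd.tri _ _ _) h3⟩
    · obtain ⟨a, ha, h3⟩ := ih hbu p (D.U_par h1 hp) q hq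
      obtain ⟨a', ha', h4⟩ := D.sep h1 p hp a ha
      have h5 := hd.tri p a' q
      have h6 := hd.tri a' a q
      exact ⟨a', ha', by linarith⟩

theorem anc_ne {b u t : N} (h1 : D.par t = some u) (h2 : Anc D.par b u) : b ≠ t := by
  have h3 := h2.le (par := D.par) (fun h => D.par_lt h)
  have h4 := D.par_lt h1
  exact (h3.trans_lt h4).ne

variable [WellFoundedLT N]

/-- The contracted metric on the adhesion of `t`. -/
noncomputable def rho : N → V → V → ℝ :=
  WellFounded.fix (wellFounded_lt : WellFounded ((· < ·) : N → N → Prop)) fun t rec =>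
    match h : D.par t with
    | none => fun _ _ => 0
    | some s => rT d (D.S s) (rec s (D.par_lt h))

theorem rho_root {t : N} (h : D.par t = none) : D.rho t = fun _ _ => 0 := by
  rw [rho, WellFounded.fix_eq]
  split
  · rfl
  · simp_all

theorem rho_step {t s : N} (h : D.par t = some s) : D.rho t = rT d (D.S s) (D.rho s) := by
  have h0 : D.rho t = _ := WellFounded.fix_eq _ _ t
  rw [h0]
  split
  · simp_all
  · next s' hs' =>
    rw [h] at hs'
    cases hs'
    rfl

/-- `X b s v`: contracted distance from `v` to `s ∈ S b`. -/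
noncomputable def X (b : N) (s v : V) : ℝ := XX d (D.S b) (D.rho b) s v

/-- `F b v = d(v, S b)`. -/
noncomputable def F (b : N) (v : V) : ℝ := dS d (D.S b) v

/-- `E b p q = max_s |X b s p - X b s q|`. -/
noncomputable def E (b : N) (p q : V) : ℝ := rT d (D.S b) (D.rho b) p q

theorem rho_eq_E {t s : N} (h : D.par t = some s) (p q : V) : D.rho t p q = D.E s p q := by
  rw [D.rho_step h]; rfl

theorem rho_sub (hd : PM d) (t : N) : Sub d (D.S t) (D.rho t) := by
  cases h : D.par t with
  | none =>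
    rw [D.rho_root h]
    exact ⟨by simp, by simp, by simp, fun s _ s' _ => hd.nonneg s s'⟩
  | some s => rw [D.rho_step h]; exact rT_sub hd _

theorem E_pm (b : N) : PM (D.E b) := rT_pm

theorem E_le (hd : PM d) (b : N) (p q : V) : D.E b p q ≤ d p q := rT_le hd p q

theorem F_nonneg (hd : PM d) (b : N) (p : V) : 0 ≤ D.F b p := dS_nonneg hd p

theorem F_mem (hd : PM d) {b : N} {a : V} (ha : a ∈ D.S b) : D.F b a = 0 := dS_mem hd ha

theorem F_le {b : N} {a : V} (ha : a ∈ D.S b) (p : V) : D.F b p ≤ d p a := dS_le ha p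

theorem F_near {b : N} (h : (D.S b).Nonempty) (p : V) : ∃ a ∈ D.S b, D.F b p = d p a :=
  exists_dS h p

theorem F_le_E (hd : PM d) (b : N) (p q : V) : |D.F b p - D.F b q| ≤ D.E b p q :=
  dS_le_rT (D.rho_sub hd b) p q

/-- on points below `t`, the distance to the adhesions decreases on the way down. -/
theorem F_anti (hd : PM d) {b t : N} (h : Anc D.par b t) (hne : (D.S b).Nonempty) {p : V}
    (hp : p ∈ D.U t) : D.F t p ≤ D.F b p := by
  by_cases hbt : b = t
  · subst hbt; exact le_rfl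
  · obtain ⟨q, hq, h1⟩ := D.F_near hne p
    obtain ⟨a, ha, h2⟩ := D.sep_anc hd h hbt p hp q hq
    have h3 := D.F_le ha p
    have h4 := hd.nonneg a q
    linarith

theorem X_through (hd : PM d) {b t : N} (h : Anc D.par b t) (hbt : b ≠ t)
    (hne : (D.S b).Nonempty) (s : V) {v : V} (hv : v ∈ D.U t) :
    (∃ a ∈ D.S t, D.X b s v = d v a + D.X b s a) ∧
      ∀ a ∈ D.S t, D.X b s v ≤ d v a + D.X b s a :=
  XX_through hne hd (fun q hq => D.sep_anc hd h hbt v hv q hq) s

theorem X_var (hd : PM d) {b t : N} (h : Anc D.par b t) :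
    b ≠ t → ∀ s ∈ D.S b, ∀ a ∈ D.S t, ∀ a' ∈ D.S t, |D.X b s a - D.X b s a'| ≤ D.rho t a a' := by
  induction h with
  | refl => exact fun h => absurd rfl h
  | @step u t h1 h2 ih =>
    intro _ s hs a ha a' ha'
    rw [D.rho_step h1]
    by_cases hbu : b = u
    · subst hbu
      exact le_rT hs a a'
    · exact step_rT (D.rho_sub hd u) (ih hbu s hs)
        (D.X_through hd h2 hbu ⟨s, hs⟩ s (D.U_par h1 (D.S_sub t a ha)))
        (D.X_through hd h2 hbu ⟨s, hs⟩ s (D.U_par h1 (D.S_sub t a' ha')))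

/-- The Kuratowski distances increase on the way down. -/
theorem E_mono (hd : PM d) {b t : N} (h : Anc D.par b t) {p q : V} (hp : p ∈ D.U t)
    (hq : q ∈ D.U t) : D.E b p q ≤ D.E t p q := by
  by_cases hbt : b = t
  · subst hbt; exact le_rfl
  · by_cases hne : (D.S b).Nonempty
    · obtain ⟨s, hs, h1⟩ := exists_rT (d := d) (ρ := D.rho b) hne p q
      have h2 : D.E b p q = |D.X b s p - D.X b s q| := h1
      rw [h2]
      exact step_rT (D.rho_sub hd t) (D.X_var hd h hbt s hs)
        (D.X_through hd h hbt ⟨s, hs⟩ s hp) (D.X_through hd h hbt ⟨s, hs⟩ s hq)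
    · have h2 : D.E b p q = 0 := rT_empty hne p q
      rw [h2]; exact (D.E_pm t).nonneg p q

theorem E_le_X (hd : PM d) {b : N} {w : V} (hw : w ∈ D.S b) (p : V) : D.E b p w ≤ D.X b w p := by
  obtain ⟨s, hs, h1⟩ := exists_rT (d := d) (ρ := D.rho b) ⟨w, hw⟩ p w
  have h2 : D.E b p w = |D.X b s p - D.X b s w| := h1
  have h3 : D.X b s w = D.rho b w s := XX_mem hd (D.rho_sub hd b) hs hw
  rw [h2, h3, (D.rho_sub hd b).symm w hw s hs]
  exact XX_capture hd (D.rho_sub hd b) hs hw p

/-- `|X^b_w(p) - X^b_w(q)| ≤ E b p q`, and in particular `X^b_w(p) ≤ E b p w`. -/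
theorem X_le_E (hd : PM d) {b : N} {w : V} (hw : w ∈ D.S b) (p : V) : D.X b w p ≤ D.E b p w := by
  have h1 := le_rT (d := d) (ρ := D.rho b) hw p w
  have h2 : XX d (D.S b) (D.rho b) w w = 0 := by
    rw [XX_mem hd (D.rho_sub hd b) hw hw, (D.rho_sub hd b).self w hw]
  rw [h2, sub_zero] at h1
  exact (le_abs_self _).trans h1

theorem X_eq_E (hd : PM d) {b : N} {w : V} (hw : w ∈ D.S b) (p : V) : D.X b w p = D.E b p w :=
  le_antisymm (D.X_le_E hd hw p) (D.E_le_X hd hw p)

/-- **No accumulation**: a geodesic from `q` to a vertex `w` of a higher adhesion crosses every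
adhesion in between. -/
theorem long_X (hd : PM d) {b t : N} (h : Anc D.par b t) {w : V} (hw : w ∈ D.S b) :
    ∀ p ∈ D.U t, ∀ q ∈ D.U t, D.E t p q ≤ d q w + D.X b w p := by
  induction h with
  | refl =>
    intro p _ q _
    have h1 := (D.E_pm b).tri p w q
    have h2 := D.E_le_X hd hw p
    have h3 := D.E_le hd b w q
    rw [hd.symm w q] at h3
    linarith
  | @step u t h1 h2 ih =>
    intro p hp q hq
    have hanc : Anc D.par b t := Anc.step h1 h2
    have hbt : b ≠ t := D.anc_ne h1 h2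
    obtain ⟨c, hc, h3⟩ := D.sep_anc hd hanc hbt q hq w hw
    obtain ⟨⟨a, ha, h4⟩, _⟩ := D.X_through hd hanc hbt ⟨w, hw⟩ w hp
    have h5 : D.X t c p ≤ d p a + D.rho t a c := XX_le ha c p
    have h6 := ih a (D.U_par h1 (D.S_sub t a ha)) c (D.U_par h1 (D.S_sub t c hc))
    rw [D.rho_eq_E h1] at h5
    have h7 := (D.E_pm t).tri p c q
    have h8 := D.E_le_X hd hc p
    have h9 := D.E_le hd t c q
    rw [hd.symm c q] at h9
    linarith

/-- **`long`** in the letters of helper360: `ρ_t(p,q) ≤ d(p,a) + d(q,c) + ρ_u(a,c)`, `u` a proper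
ancestor of `t`, `a, c ∈ S_u`. -/
theorem long (hd : PM d) {u t : N} (h : Anc D.par u t) (hut : u ≠ t) {p q a c : V}
    (hp : p ∈ D.S t) (hq : q ∈ D.S t) (ha : a ∈ D.S u) (hc : c ∈ D.S u) :
    D.rho t p q ≤ d p a + d q c + D.rho u a c := by
  cases h with
  | refl => exact absurd rfl hut
  | @step v _ h1 h2 =>
    rw [D.rho_eq_E h1]
    have h3 := D.long_X hd h2 hc p (D.U_par h1 (D.S_sub t p hp)) q (D.U_par h1 (D.S_sub t q hq))
    have h4 : D.X u c p ≤ d p a + D.rho u a c := XX_le ha c p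
    linarith

theorem E_lip (hd : PM d) (b : N) (p q a c : V) : D.E b a c ≤ D.E b p q + d p a + d q c := by
  have h1 := (D.E_pm b).tri a p c
  have h2 := (D.E_pm b).tri p q c
  have h3 := D.E_le hd b a p
  have h4 := D.E_le hd b q c
  rw [hd.symm a p] at h3
  linarith

/-- the contracted distance to `a ∈ S t` dominates the variation of all ancestor functions. -/
theorem X_point (hd : PM d) {b t : N} (h : Anc D.par b t) {a z : V} (ha : a ∈ D.S t)
    (hz : z ∈ D.U t) : D.E b z a ≤ D.X t a z :=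
  (D.E_mono hd h hz (D.S_sub t a ha)).trans (D.E_le_X hd ha z)

/-! ### Births -/

/-- The births at `b`: `F_b` and the `k³` clamps. -/
theorem exists_births (hd : PM d) {k : ℕ} (b : N) (hk : (D.S b).card ≤ k) :
    ∃ f : Option (Fin k × Fin k × Fin k) → V → ℝ,
      (∀ p, f none p = D.F b p) ∧
      (∀ i p q, |f i p - f i q| ≤ D.E b p q) ∧
      (∀ i, ∀ a ∈ D.S b, f i a = 0) ∧
      (∀ h : ℝ, 0 < h → ∀ p q, 2 * h ≤ D.F b p → 3 * h ≤ D.E b p q →
        ∃ i, h ≤ |f i p - f i q|) := by
  classical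
  by_cases hne : (D.S b).Nonempty
  · have hcard0 : 0 < (D.S b).card := Finset.card_pos.2 hne
    -- enumeration
    obtain ⟨e, he⟩ : ∃ e : Fin k → V, (∀ i, e i ∈ D.S b) ∧ ∀ s ∈ D.S b, ∃ i, e i = s := by
      obtain ⟨s0, hs0⟩ := hne
      refine ⟨fun i => if h : (i : ℕ) < (D.S b).card then
        ((D.S b).equivFin.symm ⟨i, h⟩ : V) else s0, fun i => ?_, fun s hs => ?_⟩
      · by_cases h : (i : ℕ) < (D.S b).card
        · simp only [dif_pos h]; exact ((D.S b).equivFin.symm ⟨i, h⟩).2
        · simp only [dif_neg h]; exact hs0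
      · have h1 := ((D.S b).equivFin ⟨s, hs⟩).2
        refine ⟨⟨(D.S b).equivFin ⟨s, hs⟩, lt_of_lt_of_le h1 hk⟩, ?_⟩
        simp only [h1, dif_pos, Fin.eta, Equiv.symm_apply_apply]
    obtain ⟨he1, he2⟩ := he
    refine ⟨fun i v => match i with
      | none => D.F b v
      | some (i1, i2, i3) => cl (D.F b v) (D.X b (e i1) v -
          (D.rho b (e i1) (e i2) + D.rho b (e i1) (e i3)) / 2), fun p => rfl, ?_, ?_, ?_⟩
    · intro i p q
      rcases i with _ | ⟨i1, i2, i3⟩
      · exact D.F_le_E hd b p q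
      · refine cl_lip (D.F_le_E hd b p q) ?_
        have h1 := le_rT (d := d) (ρ := D.rho b) (he1 i1) p q
        have h2 : D.X b (e i1) p - (D.rho b (e i1) (e i2) + D.rho b (e i1) (e i3)) / 2 -
            (D.X b (e i1) q - (D.rho b (e i1) (e i2) + D.rho b (e i1) (e i3)) / 2) =
            D.X b (e i1) p - D.X b (e i1) q := by ring
        rw [h2]; exact h1
    · intro i a ha
      rcases i with _ | ⟨i1, i2, i3⟩
      · exact D.F_mem hd ha
      · simp only [D.F_mem hd ha]
        exact cl_zero _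
    · intro h hh p q h2 h3
      obtain ⟨s, hs, h4⟩ := exists_rT (d := d) (ρ := D.rho b) hne p q
      have h5 : 3 * h ≤ |D.X b s p - D.X b s q| := h3.trans (le_of_eq h4)
      have hsub := D.rho_sub hd b
      rcases capture (ι := {x // x ∈ D.S b}) (fun s s' => D.rho b s s') (fun s => D.X b s p)
        (fun s => D.X b s q) (D.F b p) (D.F b q) h hh.le
        (fun s s' => XX_capture hd hsub s.2 s'.2 p) (fun s s' => XX_capture hd hsub s.2 s'.2 q)
        (by
          obtain ⟨a, ha, h6⟩ := exists_XX_eq_dS (d := d) hsub hne p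
          exact ⟨⟨a, ha⟩, h6⟩)
        (by
          obtain ⟨a, ha, h6⟩ := exists_XX_eq_dS (d := d) hsub hne q
          exact ⟨⟨a, ha⟩, h6⟩) h2 ⟨s, hs⟩ h5 with h6 | ⟨s1, s2, h6⟩
      · exact ⟨none, h6⟩
      · obtain ⟨i1, hi1⟩ := he2 s hs
        obtain ⟨i2, hi2⟩ := he2 s1 s1.2
        obtain ⟨i3, hi3⟩ := he2 s2 s2.2
        refine ⟨some (i1, i2, i3), ?_⟩
        simp only [hi1, hi2, hi3]
        exact h6
  · refine ⟨fun _ _ => 0, fun p => ?_, fun i p q => ?_, fun _ _ _ => rfl, ?_⟩
    · exact (dS_empty hne p).symm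
    · simpa using (D.E_pm b).nonneg p q
    · intro h hh p q h2 _
      have h3 : D.F b p = 0 := dS_empty hne p
      linarith

end Tree

end Vale.Agent.P235.K5.H838
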