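import Vale.Agent.P235.K5.H360.Mon
import Vale.Agent.P235.K5.H838.Tree
import Vale.Agent.P235.K5.H669.Tree

/-!
# P235, line K5, Theorem N: the concrete tree is an instance of `H360.Nodes`
-/

set_option linter.unusedSectionVars false

namespace Vale.Agent.P235.K5.H838

open Finset Vale.Agent.P235.H732

namespace Tree

variable {N V : Type*} [LinearOrder N] {d : V → V → ℝ} (D : Tree N V d) [WellFoundedLT N]

open Classical in
/-- The metric of the node `t`: `E t` below `t`, the large constant `M` elsewhere. -/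
noncomputable def dt (M : ℝ) (t : N) (p q : V) : ℝ :=
  if p ∈ D.U t ∧ q ∈ D.U t then D.E t p q else M

theorem dt_le (hd : PM d) {M : ℝ} (hM : ∀ p q, d p q ≤ M) (t : N) (p q : V) :
    D.dt M t p q ≤ M := by
  unfold dt
  split_ifs
  · exact (D.E_le hd t p q).trans (hM p q)
  · exact le_rfl

theorem E_le_dt (hd : PM d) {M : ℝ} (hM : ∀ p q, d p q ≤ M) (t : N) (p q : V) :
    D.E t p q ≤ D.dt M t p q := by
  unfold dt
  split_ifs
  · exact le_rfl
  · exact (D.E_le hd t p q).trans (hM p q)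

theorem dt_of_mem {M : ℝ} {t : N} {p q : V} (hp : p ∈ D.U t) (hq : q ∈ D.U t) :
    D.dt M t p q = D.E t p q := by
  unfold dt
  rw [if_pos ⟨hp, hq⟩]

theorem dt_par (hd : PM d) {M : ℝ} (hM : ∀ p q, d p q ≤ M) {t s : N} (h : D.par t = some s)
    (p q : V) : D.dt M s p q ≤ D.dt M t p q := by
  by_cases hpq : p ∈ D.U t ∧ q ∈ D.U t
  · rw [D.dt_of_mem hpq.1 hpq.2, D.dt_of_mem (D.U_par h hpq.1) (D.U_par h hpq.2)]
    exact D.E_mono hd (Anc.step h Anc.refl) hpq.1 hpq.2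
  · have h1 : D.dt M t p q = M := by
      unfold dt
      rw [if_neg hpq]
    rw [h1]
    exact D.dt_le hd hM s p q

/-- The births, chosen. -/
noncomputable def bf (hd : PM d) {k : ℕ} (hk : ∀ t, (D.S t).card ≤ k) (b : N) :
    Option (Fin k × Fin k × Fin k) → V → ℝ :=
  (D.exists_births hd b (hk b)).choose

theorem bf_spec (hd : PM d) {k : ℕ} (hk : ∀ t, (D.S t).card ≤ k) (b : N) :
    (∀ p, D.bf hd hk b none p = D.F b p) ∧
      (∀ i p q, |D.bf hd hk b i p - D.bf hd hk b i q| ≤ D.E b p q) ∧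
      (∀ i, ∀ a ∈ D.S b, D.bf hd hk b i a = 0) ∧
      (∀ h : ℝ, 0 < h → ∀ p q, 2 * h ≤ D.F b p → 3 * h ≤ D.E b p q →
        ∃ i, h ≤ |D.bf hd hk b i p - D.bf hd hk b i q|) :=
  (D.exists_births hd b (hk b)).choose_spec

/-- **The instance.** -/
noncomputable def toNodes (hd : PM d) {k : ℕ} (hk : ∀ t, (D.S t).card ≤ k)
    (hne : ∀ t, (D.S t).Nonempty) (M : ℝ) (hM : ∀ p q, d p q ≤ M) :
    H360.Nodes N V (Option (Fin k × Fin k × Fin k)) d k (k * (k * k) + 1) where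
  par := D.par
  par_lt := fun h => D.par_lt h
  S := D.S
  cardS := hk
  F := D.F
  E := D.E
  rho := D.rho
  I := fun _ => Finset.univ
  cardI := fun b => by
    rw [Finset.card_univ, Fintype.card_option]
    simp
  f := fun b => D.bf hd hk b
  i0 := none
  i0_mem := fun b => Finset.mem_univ _
  f_i0 := fun b p => (D.bf_spec hd hk b).1 p
  d_nonneg := hd.nonneg
  dt := D.dt M
  dt_nonneg := fun t p q => ((D.E_pm t).nonneg p q).trans (D.E_le_dt hd hM t p q)
  dt_mono := fun h p q => D.dt_par hd hM h p q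
  F_nonneg := fun b p => D.F_nonneg hd b p
  F_lip := fun b p q => by
    have := (abs_le.1 (dS_lip (S := D.S b) hd p q)).2
    have h2 : dS d (D.S b) p - dS d (D.S b) q = D.F b p - D.F b q := rfl
    linarith
  F_near := fun {u _ _} _ _ p _ => by
    obtain ⟨a, ha, h1⟩ := D.F_near (hne u) p
    exact ⟨a, ha, h1.ge⟩
  F_sep := fun {r w t} h1 h2 h3 p hp => by
    obtain ⟨q, hq, h4⟩ := D.F_near (hne r) p
    obtain ⟨a, ha, h5⟩ := D.sep_anc hd h1 h2 p (D.U_par h3 (D.S_sub t p hp)) q hq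
    have h6 := D.F_le hq a
    exact ⟨a, ha, by linarith⟩
  F_anti := fun {b b' w t} h1 h2 h3 p hp =>
    D.F_anti hd h1 (hne b) (D.U_anc h2 (D.U_par h3 (D.S_sub t p hp)))
  rho_root := fun h p _ q _ => by rw [D.rho_root h]
  rho_par := fun h p _ q _ => D.rho_eq_E h p q
  E_symm := fun b p q => (D.E_pm b).symm p q
  E_mono := fun {b b' w t} h1 h2 h3 p hp q hq =>
    D.E_mono hd h1 (D.U_anc h2 (D.U_par h3 (D.S_sub t p hp)))
      (D.U_anc h2 (D.U_par h3 (D.S_sub t q hq)))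
  E_lip := fun {v _ _ _} _ _ _ p _ q _ a _ c _ => D.E_lip hd v p q a c
  long := fun {u w t} h1 h2 p hp q hq a ha c hc =>
    D.long hd (Anc.step h2 h1) (D.anc_ne h2 h1) hp hq ha hc
  f_lip := fun b i _ p q => ((D.bf_spec hd hk b).2.1 i p q).trans (D.E_le hd b p q)
  f_lipt := fun b i _ p q => ((D.bf_spec hd hk b).2.1 i p q).trans (D.E_le_dt hd hM b p q)
  f_zero := fun b i _ a ha => (D.bf_spec hd hk b).2.2.1 i a ha
  cap := fun {b _ _} _ _ p _ q _ h hh h1 h2 => by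
    obtain ⟨i, hi⟩ := (D.bf_spec hd hk b).2.2.2 h hh p q h1 h2
    exact ⟨i, Finset.mem_univ _, hi⟩

/-- **The slots of Theorem N**, in the letters of `Tree`: everything that the process and the
freshness rows need. -/
theorem slots (hd : PM d) {k : ℕ} (hk : ∀ t, (D.S t).card ≤ k)
    (hne : ∀ t, (D.S t).Nonempty) (M : ℝ) (hM : ∀ p q, d p q ≤ M) :
    ∃ η : N → Fin (H360.Nodes.LL k (k * (k * k) + 1)) → V → ℝ,
      (∀ t j p q, |η t j p - η t j q| ≤ d p q) ∧
      (∀ t j p q, |η t j p - η t j q| ≤ D.dt M t p q) ∧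
      (∀ t j, (∃ s, D.par t = some s ∧ η t j = η s j) ∨ ∀ a ∈ D.S t, η t j a = 0) ∧
      (∀ t, ∀ p ∈ D.S t, ∀ q ∈ D.S t, 0 < D.rho t p q →
        ∃ j, D.rho t p q / 30 ≤ |η t j p - η t j q|) ∧
      (∀ t z, ∀ a ∈ D.S t, 0 < D.X t a z →
        ∃ j, D.X t a z / 62 ≤ |η t j z - η t j a|) := by
  obtain ⟨η, h1, h2, h3, h4, h5⟩ := (D.toNodes hd hk hne M hM).slots
  refine ⟨η, h1, h2, h3, h4, ?_⟩
  intro t z a ha hX
  obtain ⟨s, hs, h6⟩ := D.F_near (hne t) z
  refine h5 t z s hs h6.ge a ha (D.X t a z) hX ?_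
  exact XX_le (d := d) (ρ := D.rho t) hs a z

end Tree

end Vale.Agent.P235.K5.H838
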