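import Vale.Agent.P235.K5.H838.Inst

/-!
# P235, line K5, Theorem N: the slots in the letters of `H669.Nodes`
-/

set_option linter.unusedSectionVars false

namespace Vale.Agent.P235.K5.H838

open Finset Vale.Agent.P235.H732

variable {T V : Type*} {d : V → V → ℝ}

open Classical in
/-- `H669.Nodes` with a linear order of the nodes is a `Tree`. -/
noncomputable def ofNodes [LinearOrder T] (D : H669.Nodes T V d)
    (hlt : ∀ t, ¬ D.root t → D.par t < t) : Tree T V d where
  par := fun t => if D.root t then none else some (D.par t)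
  par_lt := fun {t s} h => by
    by_cases hr : D.root t
    · simp [hr] at h
    · simp only [hr, if_false, Option.some.injEq] at h
      rw [← h]; exact hlt t hr
  S := D.S
  U := D.W
  S_sub := fun t a ha => D.S_sub t ha
  U_par := fun {t s} h => by
    by_cases hr : D.root t
    · simp [hr] at h
    · simp only [hr, if_false, Option.some.injEq] at h
      rw [← h]; exact D.W_par t hr
  sep := fun {t s} h p hp q hq => by
    by_cases hr : D.root t
    · simp [hr] at h
    · simp only [hr, if_false, Option.some.injEq] at h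
      rw [← h] at hq
      obtain ⟨a, ha, h1⟩ := D.sep t hr p hp q hq
      exact ⟨a, ha, h1.ge⟩

section

variable [LinearOrder T] [WellFoundedLT T] (D : H669.Nodes T V d)

theorem ofNodes_rho (hlt : ∀ t, ¬ D.root t → D.par t < t) (t : T) : (ofNodes D hlt).rho t = D.rho t := by
  induction' t using WellFoundedLT.induction with t ih
  by_cases hr : D.root t
  · rw [D.rho_root hr]
    exact (ofNodes D hlt).rho_root (by simp [ofNodes, hr])
  · rw [D.rho_par hr, (ofNodes D hlt).rho_step (s := D.par t) (by simp [ofNodes, hr]),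
      ih (D.par t) (hlt t hr)]
    rfl

theorem ofNodes_E (hlt : ∀ t, ¬ D.root t → D.par t < t) (t : T) (p q : V) : (ofNodes D hlt).E t p q = D.EE t p q := by
  unfold Tree.E H669.Nodes.EE
  rw [ofNodes_rho]
  rfl

theorem ofNodes_X (hlt : ∀ t, ¬ D.root t → D.par t < t) (t : T) (a z : V) : (ofNodes D hlt).X t a z = D.X t a z := by
  unfold Tree.X H669.Nodes.X
  rw [ofNodes_rho]
  rfl

theorem ofNodes_dt (hlt : ∀ t, ¬ D.root t → D.par t < t) (M : ℝ) (t : T) (p q : V) : (ofNodes D hlt).dt M t p q = D.dt M t p q := by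
  by_cases h : p ∈ D.W t ∧ q ∈ D.W t
  · rw [D.dt_of_mem h.1 h.2, (ofNodes D hlt).dt_of_mem h.1 h.2]
    exact ofNodes_E D hlt t p q
  · unfold Tree.dt H669.Nodes.dt
    exact (if_neg h).trans (if_neg h).symm

/-- The number of slots. -/
def LK (k : ℕ) : ℕ := H360.Nodes.LL k (k * (k * k) + 1)

/-- **The slots of Theorem N in the letters of helper669** (`L = LK k` depends on `k` only). -/
theorem slots_of_nodes (hd : PM d) {k : ℕ} (hk : ∀ t, (D.S t).card ≤ k)
    (hne : ∀ t, (D.S t).Nonempty) (hlt : ∀ t, ¬ D.root t → D.par t < t)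
    (M : ℝ) (hM : ∀ p q, d p q ≤ M) :
    ∃ η : T → Fin (LK k) → V → ℝ,
      (∀ t j p q, |η t j p - η t j q| ≤ d p q) ∧
      (∀ t j p q, |η t j p - η t j q| ≤ D.dt M t p q) ∧
      (∀ t, ¬ D.root t → ∀ j, η t j = η (D.par t) j ∨ ∀ a ∈ D.S t, η t j a = 0) ∧
      (∀ t, ∀ p ∈ D.S t, ∀ q ∈ D.S t, 0 < D.rho t p q →
        ∃ j, D.rho t p q / 30 ≤ |η t j p - η t j q|) ∧
      (∀ t z, ∀ a ∈ D.S t, 0 < D.X t a z →
        ∃ j, D.X t a z / 62 ≤ |η t j z - η t j a|) := by
  obtain ⟨η, h1, h2, h3, h4, h5⟩ := (ofNodes D hlt).slots hd (k := k) hk hne M hM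
  refine ⟨η, h1, ?_, ?_, ?_, ?_⟩
  · intro t j p q
    rw [← ofNodes_dt D hlt]
    exact h2 t j p q
  · intro t hr j
    rcases h3 t j with ⟨s, hs, h⟩ | h
    · left
      have h6 : (ofNodes D hlt).par t = some (D.par t) := by simp [ofNodes, hr]
      rw [h6] at hs
      cases hs
      exact h
    · exact Or.inr h
  · intro t p hp q hq h
    have h6 := h4 t p hp q hq
    rw [ofNodes_rho] at h6
    exact h6 h
  · intro t z a ha h
    have h6 := h5 t z a ha
    rw [ofNodes_X] at h6
    exact h6 h

end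

end Vale.Agent.P235.K5.H838
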